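import Crest.Agent.N255.Sg.Vx
import Crest.Agent.N255.Vz.Defs

/-!
# Row 255 (helper36): the chain of a vertex region, split along the zones
-/

set_option autoImplicit false
open Set

noncomputable section

namespace Crest.Agent.N255.Sg

open Tp Wn Vc Pt Lv En Ma

variable {S : Type} [MulAction F3 S] {w : Wl (Fin 3) S} {F : Subgroup F3} {X : Type}
  [TopologicalSpace X] [MulAction F X] {k : Type} [Field k] {N : Lev w F X}
  {a b : Fin 3 → ℝ} {A R : ℝ} {v : F3} {h o : Fin 3 → Bool} {Q K : Set X} {O : Ori k 3 X}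
  {σ : Fin 3 → Ch k 3 X} {L : Vz.Lv X (Fin 3)}

variable (N a b v h o O σ L) in
/-- the pieces `ρ z` of the vertex chain and the remainder `c` -/
structure Rc (A R : ℝ) (Q K : Set X) where
  ρ : L.Ix → Ch k 4 X
  c : Ch k 3 X
  mem : ∀ z, ρ z ∈ (L.P N.cv z).ch k 4
  fine : ∑ z, ρ z ∈ (SB (L.cvr N.cv) (core L.s b)).ch k 4
  hc : c ∈ ((Pc N b v h A R Q).inf (Sm (L.cvr N.cv))).ch k 3
  bd : bd k (∑ z, ρ z) = c + ∑ j, (if o j then σ j else -σ j)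
  fund : O.Fund (K ∩ inn L.s a) (∑ z, ρ z)

theorem fw_le_fine (hs : L.s = sv N v h) (ha : ∀ j, L.l j L.n ≤ a j) (hb : ∀ j, 0 ≤ b j) (j : Fin 3) :
    (N.Sb (fw (sv N v h j) N.r (a j) (b j) R)).Le ((Pc N b v h A R Q).inf (Sm (L.cvr N.cv))) :=
  Sb.le_inf (fw_le_Pc (fun j => Vz.Lv.l_pos.le.trans (ha j)) hb j)
    (Vz.Lv.SB_le_cvr (i := j) (by rw [hs]; exact fw_le.trans (win_hi.trans (hi_mono (ha j)))))

/-- **the chains of a vertex region, on the zones** -/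
theorem St.exists_rc [T2Space X] (Z : St N a b R v h o O σ) (hs : L.s = sv N v h)
    (ha : ∀ j, L.l j L.n ≤ a j) (hb : ∀ j, b j ≤ L.r j) (hb1 : ∀ j, b j ≤ 1) (hA : 0 ≤ A)
    (hQ : IsCompact Q) (hK : IsCompact K) : Nonempty (Rc N a b v h o O σ L A R Q K) := by
  obtain ⟨ρ, h1, c, h2, h3, h4⟩ := Z.vertex (𝒵 := {U | L.fs U}) (A := A)
    (fun j => Vz.Lv.l_pos.le.trans (ha j)) hb1 hA hQ hK (fun _ => Vz.Lv.fs_open)
    (fun x _ => (Vz.Lv.fs_cover x).imp fun _ g => g)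
    fun j => ⟨_, .inr ⟨j, .inr (.inl rfl)⟩, by rw [hs]; exact win_hi.trans (hi_mono (ha j))⟩
  have h5 : ρ ∈ (SB (L.cvr N.cv) (core L.s b)).ch k 4 := fun τ hτ =>
    ⟨hs ▸ (h1 hτ).1.1, Vz.Lv.mem_cvr.2 ⟨(h1 hτ).1.2, (h1 hτ).2⟩⟩
  obtain ⟨ρ', g1, rfl⟩ := Vz.Lv.exists_split hb h5
  exact ⟨⟨ρ', c, g1, h5, fun τ hτ => ⟨(h2 hτ).1, Vz.Lv.mem_cvr.2 ⟨(h2 hτ).1.2, (h2 hτ).2⟩⟩, h3, hs ▸ h4⟩⟩

/-- the vertex chain is fundamental on the bounded parts of the windows left of `a` -/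
theorem Rc.fund_box [T2Space X] (Y : Rc N a b v h o O σ L A R Q K) (hs : L.s = sv N v h)
    (hK : IsCompact K) (ha : ∀ j, 0 ≤ a j) (j : Fin 3) {l r R' : ℝ} (hl : 0 ≤ l) (hr : r ≤ a j)
    (hb : box (L.s j) N.r l r R' ⊆ K) : O.Fund (box (L.s j) N.r l r R') (∑ z, Y.ρ z) :=
  Y.fund.mono (hs ▸ box_cpt N _ _ _ _) (hK.inter_right (isClosed_inn _ _))
    (subset_inter hb (hs ▸ box_inn ha j hl hr))

variable (N v h) in
/-- a compact set which contains the bounded parts of the three thick walls -/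
def Kb (R : ℝ) : Set X := ⋃ j, box (sv N v h j) N.r 0 1 R

theorem Kb_cpt : IsCompact (Kb N v h R) := isCompact_iUnion fun _ => box_cpt N _ _ _ _

theorem box_Kb (j : Fin 3) {l r R' : ℝ} (hl : 0 ≤ l) (hr : r ≤ 1) (hR : R' ≤ R) :
    box (sv N v h j) N.r l r R' ⊆ Kb N v h R :=
  (box_mono hl hr hR).trans (subset_iUnion (fun j => box (sv N v h j) N.r 0 1 R) j)

end Crest.Agent.N255.Sg

end
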