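import Crest.Agent.N255.Sg.Vx
import Crest.Agent.N255.En.VtS

/-!
# Row 255 (helper93): the end hypotheses of the vertex identity on `St.vt`
-/

set_option autoImplicit false
open Set

noncomputable section

namespace Crest.Agent.N255.Sg

open Tp Wn Vc Pt Lv En Ma Cs Cs.Tw Ms

variable {S : Type} [MulAction F3 S] {w : Wl (Fin 3) S} {F : Subgroup F3} {X : Type}
  [TopologicalSpace X] [MulAction F X] {k : Type} [Field k] {N : Lev w F X}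
  {a b cc : Fin 3 → ℝ} {ε A R R₀ : ℝ} {v : F3} {h o : Fin 3 → Bool} {Q : Set X}
  {O : Ori k 3 X} {σ : Fin 3 → Ch k 3 X}

variable (N v h cc ε R₀) in
/-- outside `Q` the small edges of the end that end in a slot lie on its torus -/
def Tq (Q : Set X) : Prop :=
  ∀ s ∈ (N.Qv v h ε R₀ Q).S 1, ∀ j, slv (N.Cj v h cc) s = some j → s ∈ (N.Lb R₀ (w.T (st v h j))).S 1

theorem Tq.mono {Q' : Set X} (q : Tq N cc ε R₀ v h Q) (hQ : Q ⊆ Q') : Tq N cc ε R₀ v h Q' :=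
  fun s hs => q s (Lev.Qv_anti hQ 1 hs)

theorem exists_Tq (hB : N.Big ε R₀) (hε : 0 ≤ ε) (hc : ∀ j, ε < cc j) :
    ∃ Q, IsCompact Q ∧ ∀ Q', Q ⊆ Q' → Tq N cc ε R₀ v h Q' :=
  let ⟨Q, h1, h2⟩ := Lev.exists_B (v := v) (h := h) hB hε hc
  ⟨Q, h1, fun _ q => Tq.mono h2 q⟩

theorem Pc_le_Qv (hb : ∀ j, b j ≤ 1 - ε) (hB : N.Big ε R₀) (hR : R₀ ≤ R) (hA : ε ≤ A)
    (hQ : ∀ x ∈ Q, N.r x ≤ R) : (Pc N b v h A R Q).Le (N.Qv v h ε R₀ Q) :=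
  Sb.le_inf (Sb.le_inf (Pc_le_Pv hb hB hR hA) (Pc_le.trans Sb.inf_le_right)) (Pc_off hQ)

variable {M : Md w} (L : Gm w M) (hB : N.Big ε R₀)

variable (k v h o) in
/-- the end without chains -/
def vt0 : Vt k X o :=
  Lev.vt hB L (e := em v h o) (fun _ => rfl) 0 (fun _ => zero_mem _) (fun _ => map_zero _) 0
    (zero_mem _) (by simp)

variable (Z : St N a b R v h o O σ) (hR : R₀ ≤ R)
  (ha : ∀ j, ε ≤ a j) (hb : ∀ j, b j ≤ 1 - ε) (hA : ε ≤ A) {P : Tp.Sb X} (hP : P.Le (Pc N b v h A R Q))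
  (hf : ∀ j, (N.Sb (fw (sv N v h j) N.r (a j) (b j) R)).Le P) {ρ : Ch k 4 X} {c : Ch k 3 X}
  (hc : c ∈ P.ch k 3) (e : bd k ρ = c + ∑ j, (if o j then σ j else -σ j))
  {p : ℕ} [hpp : Fact p.Prime] {B : Type} [CommRing B] [Algebra k B] {G : Gr (Cs.Gm p) k B}
  {m I J : Ideal B} {x u u' : Fin 3 → (Tw G)ˣ} {hm : G.Id m} {hn : IsNilpotent m}
  {hx : ∀ j, x j ∈ Tw.U hm} {g : Cn G X}

theorem St.vt_la (j : Fin 3) :
    (Z.vt L hB hR ha hb hA hP hf hc e).la x j = (vt0 k v h o L hB).la x j := rfl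

theorem St.vt_bs (sl : Sx 1 X → Option (Fin 3)) :
    bs (Z.vt L hB hR ha hb hA hP hf hc e) sl u u' hm hn hx = bs (vt0 k v h o L hB) sl u u' hm hn hx :=
  rfl

/-- **hypothesis `h` of `Vt.ident` / `Vt.phi`** -/
theorem St.end_h (hQ : ∀ y ∈ Q, N.r y ≤ R) (hT : Tq N cc ε R₀ v h Q)
    (hg : ∀ s ∈ (On Qᶜ).S 1, g s = bs (vt0 k v h o L hB) (slv (N.Cj v h cc)) u u' hm hn hx s)
    (hI : G.Id I) (hJ : G.Id J) (Im : I ≤ m) (IJ : I * I * I ≤ J) (hx' : ∀ j, x j ∈ Tw.U hI)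
    (hu : ∀ j, u j ∈ Tw.U hm) (hu' : ∀ j, u' j ∈ Tw.U hm)
    (ja : ∀ j, In J (ja (vt0 k v h o L hB) x u j)) (jb : ∀ j, In J (jb (vt0 k v h o L hB) x u' j)) :
    ∀ s ∈ (Z.vt L hB hR ha hb hA hP hf hc e).M.P.S 1, In J ((g s).val -
      (1 + (Z.vt L hB hR ha hb hA hP hf hc e).M.v (fun i => (x i).val - 1) s)) := fun s hs =>
  Lev.end_h hI hJ Im IJ hx' hu hu' ja jb hT hg s (Pc_le_Qv hb hB hR hA hQ 1 (hP 1 hs))

/-- **hypothesis `e` of `Vt.ident` / `Vt.phi`** -/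
theorem St.end_e (hQ : ∀ y ∈ Q, N.r y ≤ R) (h0 : ∀ j, 0 ≤ cc j) (h1 : ∀ j, cc j ≤ a j)
    (hg : ∀ s ∈ (On Qᶜ).S 1, g s = bs (vt0 k v h o L hB) (slv (N.Cj v h cc)) u u' hm hn hx s)
    (j : Fin 3) : ((Z.vt L hB hR ha hb hA hP hf hc e).T j).Bc g (u j) (u' j) := fun s hs => by
  rw [hg s fun y hy q => (hQ y q).not_gt (hs.1 hy).1,
    bs_some (slv_in (Lev.Cj_disj h0) fun y hy => (h1 j).trans_lt (hs.1 hy).2.1)]
  rfl

/-- the jumps lie in `J`: form of the hypotheses `hM`, `ha`, `hb` of `Vt.ident` -/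
theorem ja_in {K : Type} [CommRing K] [Algebra K B] {G : Gr (Cs.Gm p) K B} {V : Vt K X o}
    {x u : Fin 3 → (Tw G)ˣ} (hM : ∀ j, o j = true → u j = x j)
    (h : ∀ j, o j = false → In J ((u j).val - (1 + V.la x j))) (j : Fin 3) : In J (ja V x u j) := by
  rcases q : o j with _ | _
  · simpa [ja, q] using h j q
  · rw [ja_M q (hM j q)]; exact in_zero

end Crest.Agent.N255.Sg

end
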