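import Crest.Agent.N255.Sg.Fu
import Crest.Agent.N255.En.Cm

/-!
# Row 255 (helper36): the chains `ρ`, `c` and the end `Vt` of a vertex region
-/

set_option autoImplicit false
set_option linter.unusedSectionVars false
open Set

noncomputable section

namespace Crest.Agent.N255.Sg

open Tp Wn Vc Pt Lv En Ma Cs

/-- smaller families which carry the chains -/
def vshr {K X : Type} [Field K] [TopologicalSpace X] {t : Fin 3 → Bool} (V : Vt K X t) (P : Tp.Sb X)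
    (Q : Fin 3 → Tp.Sb X) (hP : P.Le V.M.P) (hQ : ∀ j, (Q j).Le (V.T j).P) (le : ∀ j, (Q j).Le P)
    (ht : ∀ j, (V.T j).t ∈ (Q j).ch K 2) (hc : V.c ∈ P.ch K 3) : Vt K X t where
  M := { V.M with P := P, hx := fun i => Sb.Z_mono hP (V.M.hx i),
                  hy := fun i j σ hσ => V.M.hy i j σ (hP 2 hσ) }
  T j := (V.T j).shr (Q j) (hQ j) (ht j)
  e := V.e
  c := V.c
  le := le
  hx j i s hs := V.hx j i s (hQ j 1 hs)
  hy j i l s hs := V.hy j i l s (hQ j 1 hs)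
  hc := hc
  hb := V.hb

theorem isClosed_inn {X ι : Type} [TopologicalSpace X] (s : ι → C(X, ℝ)) (a : ι → ℝ) :
    IsClosed (inn s a) := by
  rw [show inn s a = ⋂ j, {x | s j x ≤ a j} by ext; simp [inn]]
  exact isClosed_iInter fun j => isClosed_le (s j).continuous continuous_const

variable {S : Type} [MulAction F3 S] {w : Wl (Fin 3) S} {F : Subgroup F3} {X : Type}
  [TopologicalSpace X] [MulAction F X] {k : Type} [Field k] {N : Lev w F X}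
  {a b : Fin 3 → ℝ} {ε A R R₀ : ℝ} {v : F3} {h o : Fin 3 → Bool} {Q : Set X} {n : ℕ}

variable (N v h) in
/-- the levels of the star -/
abbrev sv (j : Fin 3) : C(X, ℝ) := N.s (st v h j)

variable (N v h b) in
/-- the end of the vertex region: far parts and deep parts -/
def Wc (A R : ℝ) (Q : Set X) : Set (Set X) :=
  insert (core (sv N v h) b ∩ hi N.r R) {D | ∃ e, Out v 1 e ∧ (∀ j, Bey (rev (st v h j)) e) ∧
    D = (core (sv N v h) b ∩ hi (N.s e) A) \ Q}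

variable (N v h b) in
/-- small simplices of the end of the vertex region -/
def Pc (A R : ℝ) (Q : Set X) : Tp.Sb X := (Sm (Wc N b v h A R Q)).inf (Sm N.cv)

theorem mem_Pc {σ : Sx n X} : σ ∈ (Pc N b v h A R Q).S n ↔ σ ∈ (N.Sb (core (sv N v h) b)).S n ∧
    (range σ ⊆ hi N.r R ∨ ∃ e, Out v 1 e ∧ (∀ j, Bey (rev (st v h j)) e) ∧
      range σ ⊆ hi (N.s e) A \ Q) := by
  constructor
  · rintro ⟨⟨_, rfl | ⟨e, h1, h2, rfl⟩, h3⟩, h4⟩
    · exact ⟨⟨h3.trans inter_subset_left, h4⟩, .inl (h3.trans inter_subset_right)⟩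
    · exact ⟨⟨fun x hx => (h3 hx).1.1, h4⟩, .inr ⟨e, h1, h2, fun x hx => ⟨(h3 hx).1.2, (h3 hx).2⟩⟩⟩
  · rintro ⟨⟨h1, h2⟩, h3 | ⟨e, h3, h4, h5⟩⟩
    · exact ⟨⟨_, .inl rfl, subset_inter h1 h3⟩, h2⟩
    · exact ⟨⟨_, .inr ⟨e, h3, h4, rfl⟩, fun x hx => ⟨⟨h1 hx, (h5 hx).1⟩, (h5 hx).2⟩⟩, h2⟩

theorem Pc_le : (Pc N b v h A R Q).Le (N.Sb (core (sv N v h) b)) := fun _ _ hσ => (mem_Pc.1 hσ).1

/-- the end avoids `Q` if the radius is large -/
theorem Pc_off (hQ : ∀ x ∈ Q, N.r x ≤ R) : (Pc N b v h A R Q).Le (On Qᶜ) := fun _ _ hσ x hx q =>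
  (mem_Pc.1 hσ).2.elim (fun g => not_lt.2 (hQ x q) (g hx)) fun ⟨_, _, _, g⟩ => (g hx).2 q

theorem s_st (N : Lev w F X) {i j : Fin 3} (e : i ≠ j) (x : X) : sv N v h j x + sv N v h i x ≤ 0 := by
  have := N.s_bey _ _ x (st_bey v h e)
  rw [N.s_rev] at this
  linarith

theorem Pc_le_Pv (hb : ∀ j, b j ≤ 1 - ε) (hB : N.Big ε R₀) (hR : R₀ ≤ R) (hA : ε ≤ A) :
    (Pc N b v h A R Q).Le (N.Pv v h ε R₀) := fun n σ hσ => by
  obtain ⟨h1, h2 | ⟨e, h2, h3, h4⟩⟩ := mem_Pc.1 hσ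
  · refine Lev.Lb_le_Pv n ((hB.mono le_rfl hR).sb hR (U := core (sv N v h) b ∩ hi N.r R)
      inter_subset_right (fun x hx => Wl.mem_Mod3.2 fun j => ?_) n ⟨subset_inter h1.1 h2, h1.2⟩)
    exact (hB.mono le_rfl hR).side _ x hx.2 ((hx.1 j).trans_le (hb _))
  · exact Lev.deep_le_Pv h2 h3 (hi_mono hA) n ⟨h4.trans sdiff_subset, h1.2⟩

theorem win_cr (ha : ∀ j, 0 ≤ a j) (hb : ∀ j, 0 ≤ b j) (j : Fin 3) :
    win (sv N v h j) (a j) (b j) ⊆ core (sv N v h) b := fun x hx i => by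
  by_cases e : i = j
  · exact e ▸ hx.2
  · linarith [s_st (v := v) (h := h) N (Ne.symm e) x, hx.1, ha j, hb i]

theorem fw_le_Pc (ha : ∀ j, 0 ≤ a j) (hb : ∀ j, 0 ≤ b j) (j : Fin 3) :
    (N.Sb (fw (sv N v h j) N.r (a j) (b j) R)).Le (Pc N b v h A R Q) := fun _ _ hσ =>
  mem_Pc.2 ⟨⟨hσ.1.trans (fw_le.trans (win_cr ha hb j)), hσ.2⟩, .inl fun _ hx => (hσ.1 hx).1⟩

theorem fw_le_PcZ (ha : ∀ j, 0 ≤ a j) (hb : ∀ j, 0 ≤ b j) {𝒵 : Set (Set X)}
    (z3 : ∀ j, ∃ U ∈ 𝒵, win (sv N v h j) (a j) (b j) ⊆ U) (j : Fin 3) :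
    (N.Sb (fw (sv N v h j) N.r (a j) (b j) R)).Le ((Pc N b v h A R Q).inf (Sm 𝒵)) :=
  Sb.le_inf (fw_le_Pc ha hb j) fun _ _ hσ => (z3 j).imp fun _ g => ⟨g.1, hσ.1.trans (fw_le.trans g.2)⟩

theorem box_inn (ha : ∀ j, 0 ≤ a j) (j : Fin 3) {l r : ℝ} (hl : 0 ≤ l) (hr : r ≤ a j) :
    box (sv N v h j) N.r l r R ⊆ inn (sv N v h) a := fun x hx i => by
  by_cases e : i = j
  · exact e ▸ hx.2.2.trans hr
  · linarith [s_st (v := v) (h := h) N (Ne.symm e) x, hx.2.1, ha i]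

variable {O : Ori k 3 X} {σ : Fin 3 → Ch k 3 X}

variable (N O v h o a b R σ) in
/-- small walls at the star; `σ j` is the boundary of the `M` side, `o j = true` iff that side contains `v` -/
structure St : Prop where
  wr : ∀ j, Wr O N.cv (sv N v h j) N.r (a j) (b j) R (if o j then σ j else -σ j)
  sm : ∀ j, σ j ∈ (Sm N.cv).ch k 3

namespace St
variable (Z : St N a b R v h o O σ)
include Z

theorem lt (j : Fin 3) : a j < b j := by
  obtain ⟨_, _, -, -, h1, h2, h3, -⟩ := Z.wr j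
  linarith

theorem mem (j : Fin 3) : σ j ∈ (N.Sb (win (sv N v h j) (a j) (b j))).ch k 3 := by
  have := ((Z.wr j).mem N.cv_open N.cv_cover).1
  refine Sml.mem_inf ?_ (Z.sm j)
  split_ifs at this
  exacts [this, by simpa using neg_mem this]

theorem bd_mem (j : Fin 3) : bd k (σ j) ∈ (N.Sb (fw (sv N v h j) N.r (a j) (b j) R)).ch k 2 := by
  have := ((Z.wr j).mem N.cv_open N.cv_cover).2
  refine Sml.mem_inf ?_ (Sb.bd_mem (Z.sm j))
  split_ifs at this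
  exacts [this, by simpa using neg_mem this]

/-- **the chains of a vertex region**; `𝒵` is any open cover of the region for which the windows are small -/
theorem vertex [T2Space X] (ha : ∀ j, 0 ≤ a j) (hb : ∀ j, b j ≤ 1) (hA : 0 ≤ A) (hQ : IsCompact Q)
    {K : Set X} (hK : IsCompact K) {𝒵 : Set (Set X)} (z1 : ∀ U ∈ 𝒵, IsOpen U)
    (z2 : core (sv N v h) b ⊆ ⋃₀ 𝒵) (z3 : ∀ j, ∃ U ∈ 𝒵, win (sv N v h j) (a j) (b j) ⊆ U) :
    ∃ ρ ∈ ((N.Sb (core (sv N v h) b)).inf (Sm 𝒵)).ch k 4,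
      ∃ c ∈ ((Pc N b v h A R Q).inf (Sm 𝒵)).ch k 3,
        bd k ρ = c + ∑ j, (if o j then σ j else -σ j) ∧ O.Fund (K ∩ inn (sv N v h) a) ρ := by
  let 𝒱 : Set (Set X) := image2 (· ∩ ·) N.cv 𝒵
  have v1 : (Sm 𝒱).Le (Sm N.cv) := Sm_le (by rintro _ ⟨C, hC, U, -, rfl⟩; exact ⟨C, hC, inter_subset_left⟩)
  have v2 : (Sm 𝒱).Le (Sm 𝒵) := Sm_le (by rintro _ ⟨C, -, U, hU, rfl⟩; exact ⟨U, hU, inter_subset_right⟩)
  have hL := (hK.union hQ).union (N.cpt v 1 R A)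
  have oc : IsOpen (core (sv N v h) b) := isOpen_core
  obtain ⟨ρ, h1, c, h2, h3, h4⟩ := vertexF N.cv_open N.cv_cover (𝒱 := 𝒱) (𝒲 := Wc N b v h A R Q)
    Z.wr (fun i j e x => by
      by_contra hn
      rw [not_or, not_le, not_le] at hn
      linarith [s_st (v := v) (h := h) N e x, ha i, ha j]) hL
    (by rintro _ ⟨C, hC, U, hU, rfl⟩; exact (N.cv_open C hC).inter (z1 U hU))
    (fun x hx => by
      obtain ⟨C, hC, g⟩ := N.cv_cover (mem_univ x)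
      obtain ⟨U, hU, g'⟩ := z2 hx
      exact ⟨_, ⟨C, hC, U, hU, rfl⟩, g, g'⟩)
    (fun j => by
      have : σ j ∈ (Sm 𝒱).ch k 3 := fun τ hτ => by
        obtain ⟨g', C, hC, g⟩ := Z.mem j hτ
        obtain ⟨U, hU, g''⟩ := z3 j
        exact ⟨_, ⟨C, hC, U, hU, rfl⟩, subset_inter g (g'.trans g'')⟩
      split_ifs
      exacts [this, neg_mem this])
    (by
      rintro _ (rfl | ⟨e, -, -, rfl⟩)
      exacts [oc.inter isOpen_hi, (oc.inter isOpen_hi).sdiff hQ.isClosed])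
    (fun x hx => by
      by_cases g : R < N.r x
      · exact ⟨_, .inl rfl, hx.1, g⟩
      have g' : ¬∀ e, Out v 1 e → N.s e x ≤ A := fun q => hx.2 (.inr ⟨not_lt.1 g, q⟩)
      push Not at g'
      obtain ⟨e, e1, e2⟩ := g'
      refine ⟨_, .inr ⟨e, e1, bey_deep e1 fun j q => ?_, rfl⟩, ⟨hx.1, e2⟩, fun q => hx.2 (.inl (.inr q))⟩
      linarith [N.s_bey _ _ x q, hx.1 j, hb j])
    fun j => ⟨_, .inl rfl, fun x hx => ⟨win_cr ha (fun i => (ha i).trans (Z.lt i).le) j hx.2, hx.1⟩⟩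
  exact ⟨ρ, fun σ hσ => ⟨⟨(h1 hσ).1, v1 _ (h1 hσ).2⟩, v2 _ (h1 hσ).2⟩, c,
    fun σ hσ => ⟨⟨(h2 hσ).1.2, v1 _ (h2 hσ).2⟩, v2 _ (h2 hσ).2⟩, h3,
    h4.mono (hK.inter_right (isClosed_inn _ _)) (hL.inter_right (isClosed_inn _ _))
      (inter_subset_inter_left _ (subset_union_left.trans subset_union_left))⟩

end St

/-- the orientation with the `M` side behind -/
abbrev em (v : F3) (h o : Fin 3 → Bool) (j : Fin 3) : Ed (Fin 3) :=
  if o j then st v h j else rev (st v h j)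

theorem fw_Lb (hB : N.Big ε R₀) (hR : R₀ ≤ R) (ha : ∀ j, ε ≤ a j) (hb : ∀ j, b j ≤ 1 - ε) (j : Fin 3) :
    (N.Sb (fw (sv N v h j) N.r (a j) (b j) R)).Le (N.Lb R₀ (w.T (em v h o j))) := by
  rw [Lev.T_ek (e := em v h o) (fun _ => rfl)]
  exact (hB.mono le_rfl hR).fw hR (ha _) (hb _)

theorem bd_end {ρ : Ch k 4 X} {c : Ch k 3 X} (e : bd k ρ = c + ∑ j, (if o j then σ j else -σ j)) :
    bd k c + ∑ j, (if o j then bd k (σ j) else -bd k (σ j)) = 0 := by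
  have := congrArg (bd k) e
  rw [bd_bd, map_add, map_sum] at this
  rw [this]
  exact congrArg _ (Finset.sum_congr rfl fun j _ => by split_ifs <;> simp)

variable (Z : St N a b R v h o O σ) {M : Md w} (L : Gm w M) (hB : N.Big ε R₀) (hR : R₀ ≤ R)
  (ha : ∀ j, ε ≤ a j) (hb : ∀ j, b j ≤ 1 - ε) (hA : ε ≤ A) {P : Tp.Sb X} (hP : P.Le (Pc N b v h A R Q))
  (hf : ∀ j, (N.Sb (fw (sv N v h j) N.r (a j) (b j) R)).Le P) {ρ : Ch k 4 X} {c : Ch k 3 X}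
  (hc : c ∈ P.ch k 3) (e : bd k ρ = c + ∑ j, (if o j then σ j else -σ j))

/-- **the end of the vertex region**, carried by any family `P` between the far windows and `Pc` -/
def St.vt : Vt k X o :=
  vshr (Lev.vt hB L (e := em v h o) (fun _ => rfl) (fun j => bd k (σ j))
    (fun j => Sb.ch_mono (fw_Lb hB hR ha hb j) (Z.bd_mem j)) (fun _ => bd_bd _) c
    (Sb.ch_mono (hP.trans (Pc_le_Pv hb hB hR hA)) hc) (bd_end e))
    P _ (hP.trans (Pc_le_Pv hb hB hR hA)) (fw_Lb hB hR ha hb) hf Z.bd_mem hc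

theorem St.vt_T (j : Fin 3) : (Z.vt L hB hR ha hb hA hP hf hc e).T j =
    (N.tor M R₀ (em v h o j) (bd k (σ j)) (Sb.ch_mono (fw_Lb hB hR ha hb j) (Z.bd_mem j)) (bd_bd _)).shr
      (N.Sb (fw (sv N v h j) N.r (a j) (b j) R)) (fw_Lb hB hR ha hb j) (Z.bd_mem j) := rfl

theorem St.vt_TP (j : Fin 3) : ((Z.vt L hB hR ha hb hA hP hf hc e).T j).P =
    N.Sb (fw (sv N v h j) N.r (a j) (b j) R) := rfl

theorem St.vt_c : (Z.vt L hB hR ha hb hA hP hf hc e).c = c := rfl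

theorem St.vt_e : (Z.vt L hB hR ha hb hA hP hf hc e).e = L.ε v h := rfl

theorem St.vt_P : (Z.vt L hB hR ha hb hA hP hf hc e).M.P = P := rfl

theorem St.vt_x (i : Fin 3) : (Z.vt L hB hR ha hb hA hP hf hc e).M.x i = N.mz M R₀ (st v h i) := rfl

theorem St.vt_y (i j : Fin 3) :
    (Z.vt L hB hR ha hb hA hP hf hc e).M.y i j = N.fz R₀ (L.y v h i j) := rfl

end Crest.Agent.N255.Sg

end
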