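import Crest.Agent.N255.Sg.Vz
import Crest.Agent.N255.Ma.Wd

/-!
# Row 255 (helper36): the chains and the end of a vertex region for three walls `Wd`
-/

set_option autoImplicit false
open Set

noncomputable section

namespace Crest.Agent.N255.Sg

open Tp Wn Vc Pt Lv En Ma Cs

variable {F : Subgroup F3} {S : Type} [MulAction F3 S] {X : Type} [TopologicalSpace X]
  [MulAction F X] [ContinuousConstSMul F X] {k : Type} [Field k] {g : Geo F k S X} {u R₀ R A : ℝ} {n : ℕ}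
  {J : Fin 3 → Type} [∀ i, Fintype (J i)] {τ : ∀ i, Ty (J i)} {v : F3} {h t : Fin 3 → Bool}
  {ω : ∀ i, Wd g u R₀ n (τ i) (st v h i) (t i)} {σ : Fin 3 → Ch k 3 X} {Q K : Set X}

theorem u_le_l (i : Fin 3) (m : ℕ) : u ≤ (ω i).l m :=
  ((ω i).ua.trans (ω i).al.le).trans ((ω i).win.ml.monotone m.zero_le)

theorem r_le_u (i : Fin 3) (m : ℕ) : (ω i).r m ≤ 1 - u :=
  (((ω i).win.ar.antitone m.zero_le).trans (ω i).rb.le).trans (ω i).bu

theorem r_nn (i : Fin 3) (m : ℕ) : 0 ≤ (ω i).r m :=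
  (((ω i).u0.le.trans (u_le_l i m)).trans ((ω i).win.lt m m).le)

variable (ω) in
/-- the levels at the vertex; `c` are the longitude cuts -/
def lvW (c : Fin 3 → ℝ) (c0 : ∀ i, 0 < c i) (cl : ∀ i, c i ≤ (ω i).l 0) : Vz.Lv X (Fin 3) where
  s := sv g.E.toLev v h
  l i := (ω i).l
  r i := (ω i).r n
  c := c
  n := n
  ml i := (ω i).win.ml
  lt i m := (ω i).win.lt m n
  c0 := c0
  cl := cl
  sep _ _ e x := s_st g.E.toLev e.symm x

theorem stW (s : ∀ i, (ω i).Sig R (σ i)) :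
    St g.E.toLev (fun i => (ω i).l n) (fun i => (ω i).r n) R v h t g.O σ :=
  ⟨fun i => (s i).wr, fun i => (s i).sm⟩

variable (ω σ) in
/-- the chains of the vertex region on the zones of `L` -/
abbrev RcW (L : Vz.Lv X (Fin 3)) (A R : ℝ) (Q K : Set X) : Type :=
  Rc g.E.toLev (fun i => (ω i).l n) (fun i => (ω i).r n) v h t g.O σ L A R Q K

variable {L : Vz.Lv X (Fin 3)}

/-- **the chains exist** -/
theorem exists_rcW [T2Space X] (s : ∀ i, (ω i).Sig R (σ i)) (hs : L.s = sv g.E.toLev v h)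
    (hl : ∀ i, L.l i L.n ≤ (ω i).l n) (hr : ∀ i, (ω i).r n ≤ L.r i) (hA : 0 ≤ A) (hQ : IsCompact Q)
    (hK : IsCompact K) : Nonempty (RcW ω σ L A R Q K) :=
  (stW s).exists_rc hs hl hr (fun i => (r_le_u i n).trans (by linarith [(ω i).u0])) hA hQ hK

variable (ω L) in
/-- the family which carries the end -/
abbrev PW (A R : ℝ) (Q : Set X) : Tp.Sb X :=
  (Pc g.E.toLev (fun i => (ω i).r n) v h A R Q).inf (Sm (L.cvr g.E.cv))

variable (s : ∀ i, (ω i).Sig R (σ i)) (Y : RcW ω σ L A R Q K) (hs : L.s = sv g.E.toLev v h)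
  (hl : ∀ i, L.l i L.n ≤ (ω i).l n) (hR : R₀ ≤ R) (hA : u ≤ A)

/-- **the end of the vertex region** -/
def vtW : Vt k X t :=
  (stW s).vt g.L (ω 0).big hR (fun i => u_le_l i n) (fun i => r_le_u i n) hA (P := PW ω L A R Q)
    Sb.inf_le_left (fw_le_fine hs hl fun i => r_nn i n) Y.hc Y.bd

theorem fw_le_T (hR : R₀ ≤ R) (j : Fin 3) :
    (g.E.toLev.Sb (fw (g.E.s (st v h j)) g.E.r ((ω j).l n) ((ω j).r n) R)).Le (s j).T.P :=
  fw_Lb (o := t) (ω 0).big hR (fun i => u_le_l i n) (fun i => r_le_u i n) j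

theorem vtW_T (j : Fin 3) : (vtW s Y hs hl hR hA).T j = (s j).T.shr
    (g.E.toLev.Sb (fw (g.E.s (st v h j)) g.E.r ((ω j).l n) ((ω j).r n) R)) (fw_le_T s hR j)
    ((stW s).bd_mem j) := rfl

theorem vtW_TP (j : Fin 3) : ((vtW s Y hs hl hR hA).T j).P =
    g.E.toLev.Sb (fw (g.E.s (st v h j)) g.E.r ((ω j).l n) ((ω j).r n) R) := rfl

theorem vtW_s (j : Fin 3) : ((vtW s Y hs hl hR hA).T j).s = (s j).T.s := rfl

theorem vtW_g (j : Fin 3) {B : Type} [Ring B] (a b : Bˣ) :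
    ((vtW s Y hs hl hR hA).T j).g a b = (s j).T.g a b := rfl

theorem vtW_c : (vtW s Y hs hl hR hA).c = Y.c := rfl

theorem vtW_e : (vtW s Y hs hl hR hA).e = g.L.ε v h := rfl

theorem vtW_P : (vtW s Y hs hl hR hA).M.P = PW ω L A R Q := rfl

theorem vtW_x (i : Fin 3) : (vtW s Y hs hl hR hA).M.x i = g.E.toLev.mz g.M R₀ (st v h i) := rfl

theorem vtW_y (i j : Fin 3) : (vtW s Y hs hl hR hA).M.y i j = g.E.toLev.fz R₀ (g.L.y v h i j) := rfl

/-- the hypothesis `hσ` of the vertex identity -/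
theorem vtW_bd : bd k (∑ z, Y.ρ z) = (vtW s Y hs hl hR hA).c + ∑ j, if t j then σ j else -σ j := Y.bd

theorem vtW_W {p : ℕ} [Fact p.Prime] {O : Type} [CommRing O] [Algebra k O] [Fact ((p : O) = 0)]
    {G : Gr (Cs.Gm p) k O}
    (j : Fin 3) (c : Ch k 3 X) (γ : Cn G X) (a b : (Tw G)ˣ) :
    ((vtW s Y hs hl hR hA).T j).W c γ a b = (s j).T.W c γ a b := rfl

end Crest.Agent.N255.Sg

end
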